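import Vale.Agent.P155.K.Final

/-!
# P155: subsequential scaling limits of the nested double-dimer gaskets are signed nested carpets
with the Gaussian free field property (the Miller-Sheffield coupling of nested CLE_4)
-/

namespace Vale.Agent.P155.Old.GasketLimit

open MeasureTheory Filter Topology TopologicalSpace Vale.Agent.P155

/-- Temperleyan double dimers in a bounded simply connected domain: along every sequence of
Temperleyan approximations the nested gaskets and the heights of the `k` outermost loops converge
in law along subsequences, jointly in all levels, and every such limit satisfies the identities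
which characterise the nested `CLE_4` carpets with independent fair signs. -/
theorem result :
    ∀ Ω : Set ℂ, IsOpen Ω → Bornology.IsBounded Ω → Ω.Nonempty → SimplyConnectedSpace Ω →
    ∀ S : TempApprox Ω, ∀ ns : ℕ → ℕ, StrictMono ns → ∃ ms : ℕ → ℕ, StrictMono ms ∧
    ∃ (Θ : Type) (_ : MeasurableSpace Θ) (P : Measure Θ) (G : ℕ → Θ → NonemptyCompacts ℂ)
      (H : ℕ → Θ → (ℂ → ℝ) → ℝ), IsProbabilityMeasure P ∧ IsSignedCarpets P Ω G H ∧
    ∀ (k m : ℕ) (χ : Fin m → ℂ → ℝ), (∀ i, IsTest Ω (χ i)) →
    ∀ F : (Fin k → NonemptyCompacts ℂ) × (Fin k → Fin m → ℝ) → ℝ, Continuous F →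
      (∃ C, ∀ y, |F y| ≤ C) →
      Tendsto (fun j => let n := ns (ms j)
        Ex (S.T n).V (fun ω => F (fun l => toNC (gasket (S.δ n) (S.a n) (S.T n) l ω),
          fun l i => heightInt (S.δ n) (S.a n) l ω (χ i)))) atTop
        (𝓝 (∫ x, F (fun l => G l x, fun l i => H l x (χ i)) ∂P)) :=
  Vale.Agent.P155.K.main

end Vale.Agent.P155.Old.GasketLimit
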